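import Vale.Agent.P307.Ow.Lat

/-!
Families of models indexed by linear orders, in which every strong substructure is conjugate to a
standard one.
-/

universe u

open FirstOrder Cardinal Set Function Language

namespace Vale.Agent.P307.Gw

variable {L : Language.{u, u}}

/-- A functor from linear orders with order embeddings to members of `K` with strong embeddings
such that every strong embedding of `obj I` in `obj J` is given by an injection from `I` to `J`
up to an automorphism of `obj J`. -/
structure HomFamily (K : AEC L) where
  obj : ∀ (I : Type u) [LinearOrder I], Type u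
  str : ∀ (I : Type u) [LinearOrder I], L.Structure (obj I)
  map : ∀ {I J : Type u} [LinearOrder I] [LinearOrder J], (I ↪o J) → (obj I ↪[L] obj J)
  map_refl : ∀ {I : Type u} [LinearOrder I] (a : obj I), map (RelEmbedding.refl (· ≤ ·)) a = a
  map_trans : ∀ {I J M : Type u} [LinearOrder I] [LinearOrder J] [LinearOrder M] (i : I ↪o J)
    (j : J ↪o M) (a : obj I), map (i.trans j) a = map j (map i a)
  emb : ∀ {I J : Type u} [LinearOrder I] [LinearOrder J] (i : I ↪o J), K.Emb (map i)
  mono : ∀ (I : Type u) [LinearOrder I] (A B : Set I),
    (map (OrderEmbedding.subtype (· ∈ A))).toHom.range ≤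
      (map (OrderEmbedding.subtype (· ∈ B))).toHom.range → A ⊆ B
  fin : ∀ (I : Type u) [LinearOrder I] (a : obj I), ∃ s : Set I, s.Finite ∧
    a ∈ (map (OrderEmbedding.subtype (· ∈ s))).toHom.range
  hom : ∀ {I J : Type u} [LinearOrder I] [LinearOrder J] (θ : obj I ↪[L] obj J), K.Emb θ →
    ∃ (σ : obj J ≃[L] obj J) (t : I → J), Injective t ∧ ∀ A : Set I,
      ((map (OrderEmbedding.subtype (· ∈ A))).toHom.range).map
        (σ.toEmbedding.comp θ).toHom =
          (map (OrderEmbedding.subtype (· ∈ t '' A))).toHom.range
  conj : ∀ (J : Type u) [LinearOrder J] (S : L.Substructure (obj J)), K.le S →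
    ∃ (σ : obj J ≃[L] obj J) (A : Set J), S.map σ.toEmbedding.toHom =
      (map (OrderEmbedding.subtype (· ∈ A))).toHom.range

attribute [instance] HomFamily.str

end Vale.Agent.P307.Gw
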