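import Vale.Agent.P307.Gw.Pts
import Vale.Agent.P307.Gw.Hom

/-! The family of the classes with arbitrarily large geometric members. -/

universe u

open FirstOrder Cardinal Set Function Language

namespace Vale.Agent.P307.Gw

open Ow (le_map le_comap map_comap map_le_range PreFamily)

variable {L : Language.{u, u}} {K : AEC L}

namespace Geo

variable {M N : Type u} [L.Structure M] [L.Structure N] (h : Geo K N)

theorem mem_imF {φ : M ↪[L] N} (hφ : K.Emb φ) {x : h.X} (hx : x ∈ h.Mt.E) :
    x ∈ h.imF φ hφ ↔ h.sp {x} ≤ φ.toHom.range := by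
  rw [← h.sp_imF φ hφ, h.pt_le_sp hx, (h.imF_flat φ hφ).closure]

/-- Independent families are conjugate to parts of a given base. -/
theorem exists_std {ι J : Type u} (r : J → h.X) (hB : h.Mt.IsBase (range r))
    (r' : ι → h.X) (hr' : Injective r') (hI : h.Mt.Indep (range r')) :
    ∃ (σ : N ≃[L] N) (t : ι → J), Injective t ∧
      ∀ A : Set ι, (h.sp (r' '' A)).map σ.toEmbedding.toHom = h.sp (r '' (t '' A)) := by
  obtain ⟨B', hB', hsub⟩ := hI.exists_isBase_superset
  obtain ⟨σ, -, h2, -⟩ := h.conj B' (range r) hB' hB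
  have h3 : ∀ i, ∃ j, (h.sp {r' i}).map σ.toHom = h.sp {r j} := by
    intro i
    obtain ⟨_, ⟨j, rfl⟩, h4⟩ := h2 (r' i) (hsub ⟨i, rfl⟩)
    exact ⟨j, h4⟩
  choose t ht using h3
  have hσ : K.Emb σ.toEmbedding := AEC.Emb.of_equiv σ (K.mem_of_le _ (h.le_sp ∅)).2
  have hE' : ∀ i, r' i ∈ h.Mt.E := fun i => hI.subset_ground ⟨i, rfl⟩
  have hE : ∀ j, r j ∈ h.Mt.E := fun j => hB.subset_ground ⟨j, rfl⟩
  have h0 := (indep_range_iff r' hE').1 ⟨hr', hI⟩
  refine ⟨σ, t, fun i j hij => ?_, fun A => ?_⟩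
  · by_contra hne
    have h4 : (h.sp {r' i}).map σ.toHom = (h.sp {r' j}).map σ.toHom := by
      rw [ht, ht, hij]
    have h5 : h.sp {r' i} = h.sp {r' j} :=
      Substructure.map_injective_of_injective (f := σ.toHom) σ.injective h4
    apply h0 i
    rw [← h.pt_le_sp (hE' i), h5, h.pt_le_sp (hE' j)]
    exact h.Mt.subset_closure _ (by rintro _ ⟨k, -, rfl⟩; exact hE' k)
      ⟨j, fun h => hne h.symm, rfl⟩
  · rw [h.map_sp h σ.toEmbedding hσ r' (fun i => r (t i)) hE' (fun i => hE _) A
      fun i _ => ht i, image_image]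

end Geo

variable (P : PreFamily K)

theorem exists_homFamily (hG : ∀ (I : Type u) [LinearOrder I], IsGeometric K (P.obj I)) :
    Nonempty (HomFamily K) := by
  classical
  have g : ∀ (I : Type u) (lo : LinearOrder I), Geo K (P.obj I) :=
    fun I lo => (isGeometric_iff.1 (hG I)).some
  obtain ⟨r, hr1, hr2⟩ := exists_points P g
  have hrE : ∀ (I : Type u) (lo : LinearOrder I) (i : I), r I lo i ∈ (g I lo).Mt.E :=
    fun I lo i => (hr1 I lo).2.subset_ground ⟨i, rfl⟩
  let T : ∀ (I : Type u) [LinearOrder I], L.Substructure (P.obj I) := fun I lo =>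
    (g I lo).sp (range (r I lo))
  have hT : ∀ (I : Type u) [LinearOrder I], K.le (T I) := fun I lo => (g I lo).le_sp _
  have himg : ∀ {I J : Type u} [LinearOrder I] [LinearOrder J] (i : I ↪o J),
      (T I).map (P.map i).toHom = (g J inferInstance).sp (r J inferInstance '' range i) := by
    intro I J lo lo' i
    have h1 := hr2 I J lo lo' i univ
    rw [image_univ, image_univ] at h1
    exact h1
  have hmaps : ∀ {I J : Type u} [LinearOrder I] [LinearOrder J] (i : I ↪o J) (a : T I),
      P.map i a.1 ∈ T J := by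
    intro I J _ _ i a
    have h1 : P.map i a.1 ∈ (T I).map (P.map i).toHom := ⟨a.1, a.2, rfl⟩
    rw [himg] at h1
    exact (g J inferInstance).sp_mono (image_subset_range _ _) h1
  let m : ∀ {I J : Type u} [LinearOrder I] [LinearOrder J] (_ : I ↪o J), (T I ↪[L] T J) :=
    fun {I J} _ _ i => Embedding.codRestrict (T J) ((P.map i).comp (T I).subtype) (hmaps i)
  have hm : ∀ {I J : Type u} [LinearOrder I] [LinearOrder J] (i : I ↪o J) (a : T I),
      (m i a).1 = P.map i a.1 := fun i a => rfl
  have hrange : ∀ (I : Type u) [LinearOrder I] (A : Set I),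
      (m (OrderEmbedding.subtype (· ∈ A))).toHom.range.map (T I).subtype.toHom =
        (g I inferInstance).sp (r I inferInstance '' A) := by
    intro I _ A
    have h1 := himg (OrderEmbedding.subtype (· ∈ A))
    have h2 : range (OrderEmbedding.subtype (· ∈ A)) = A := Subtype.range_coe
    rw [h2] at h1
    rw [← h1]
    ext y
    constructor
    · rintro ⟨_, ⟨z, rfl⟩, rfl⟩
      exact ⟨z.1, z.2, rfl⟩
    · rintro ⟨z, hz, rfl⟩
      exact ⟨_, ⟨⟨z, hz⟩, rfl⟩, rfl⟩
  have hEmb : ∀ (I : Type u) [LinearOrder I], K.Emb (T I).subtype := fun I _ =>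
    AEC.emb_subtype.2 (hT I)
  -- the matroid of `T I`
  let h : ∀ (I : Type u) [LinearOrder I], Geo K (T I) := fun I lo =>
    (g I lo).restrict (T I).subtype (hEmb I)
  let r' : ∀ (I : Type u) [LinearOrder I], I → (h I).X := fun I lo => r I lo
  have himF : ∀ (I : Type u) [LinearOrder I], (g I inferInstance).imF (T I).subtype (hEmb I) =
      (g I inferInstance).Mt.closure (range (r I inferInstance)) := by
    intro I lo
    have h1 := (g I lo).sp_imF (T I).subtype (hEmb I)
    rw [Substructure.range_subtype] at h1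
    have h2 : (g I lo).Mt.closure ((g I lo).imF (T I).subtype (hEmb I)) =
        (g I lo).Mt.closure (range (r I lo)) :=
      subset_antisymm ((g I lo).sp_le_sp.1 h1.le) ((g I lo).sp_le_sp.1 h1.ge)
    rwa [((g I lo).imF_flat (T I).subtype (hEmb I)).closure] at h2
  have hrsub : ∀ (I : Type u) [LinearOrder I], range (r I inferInstance) ⊆
      (g I inferInstance).imF (T I).subtype (hEmb I) := by
    intro I lo
    rw [himF]
    exact (g I lo).Mt.subset_closure _ (hr1 I lo).2.subset_ground
  have hbase : ∀ (I : Type u) [LinearOrder I], (h I).Mt.IsBase (range (r' I)) := by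
    intro I lo
    change ((g I lo).Mt.restrict ((g I lo).imF (T I).subtype (hEmb I))).IsBase (range (r I lo))
    rw [Matroid.isBase_restrict_iff ((g I lo).imF_flat _ _).subset_ground, himF]
    exact (hr1 I lo).2.isBasis_closure
  have hinj : ∀ (I : Type u) [LinearOrder I], Injective (r' I) := fun I lo => (hr1 I lo).1
  have hspm : ∀ (I : Type u) [LinearOrder I] (A : Set I),
      ((h I).sp (r' I '' A)).map (T I).subtype.toHom =
        (g I inferInstance).sp (r I inferInstance '' A) := fun I lo A =>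
    (g I lo).map_restrict_sp (T I).subtype (hEmb I) ((image_subset_range _ _).trans (hrsub I))
  have hsub : ∀ (I : Type u) [LinearOrder I] (A : Set I),
      (m (OrderEmbedding.subtype (· ∈ A))).toHom.range = (h I).sp (r' I '' A) := by
    intro I lo A
    apply strong_map_injective (T I).subtype
    rw [hrange, hspm]
  refine ⟨{ obj := fun I _ => T I, str := fun I _ => inferInstance, map := fun i => m i,
            map_refl := fun a => Subtype.ext (P.map_refl _),
            map_trans := fun i j a => Subtype.ext (P.map_trans _ _ _),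
            emb := ?_, mono := ?_, fin := ?_, hom := ?_, conj := ?_ }⟩
  · intro I J _ _ i
    refine AEC.Emb.of_comp (hEmb J) ?_
    have h1 : (T J).subtype.comp (m i) = (P.map i).comp (T I).subtype := by
      apply Language.Embedding.ext
      intro x
      rfl
    rw [h1]
    exact AEC.Emb.comp (P.emb i) (hEmb I)
  · intro I lo A B hAB a ha
    rw [hsub, hsub] at hAB
    by_contra hb
    have h1 := (indep_range_iff (r' I) fun i => (hbase I).subset_ground ⟨i, rfl⟩).1
      ⟨hinj I, (hbase I).indep⟩ a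
    apply h1
    have h3 : r' I a ∈ r' I '' A := ⟨a, ha, rfl⟩
    have h2 := ((h I).sp_mono (singleton_subset_iff.2 h3)).trans hAB
    rw [(h I).pt_le_sp ((hbase I).subset_ground ⟨a, rfl⟩)] at h2
    have h4 : B ⊆ {a}ᶜ := fun b hb' h3 => hb (mem_singleton_iff.1 h3 ▸ hb')
    exact (h I).Mt.closure_subset_closure (image_mono h4) h2
  · intro I lo a
    let F : Finset I → L.Substructure (P.obj I) := fun s =>
      (g I lo).sp (r I lo '' (s : Set I))
    have hFm : Monotone F := fun s t hst => (g I lo).sp_mono (image_mono hst)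
    have h1 : K.le (⨆ s, F s) := AEC.le_iSup_finset F hFm fun s => (g I lo).le_sp _
    have h2 : T I ≤ ⨆ s, F s := by
      rw [(g I lo).sp_le_iff (hr1 I lo).2.subset_ground h1]
      rintro _ ⟨i, rfl⟩
      refine le_trans ?_ (le_iSup F {i})
      exact (g I lo).sp_mono (singleton_subset_iff.2 ⟨i, by simp, rfl⟩)
    have h3 := h2 a.2
    rw [Substructure.mem_iSup_of_directed (directed_of_isDirected_le hFm)] at h3
    obtain ⟨s, hs⟩ := h3
    refine ⟨(s : Set I), s.finite_toSet, ?_⟩
    change a.1 ∈ (g I lo).sp (r I lo '' (s : Set I)) at hs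
    rw [← hrange] at hs
    obtain ⟨y, hy, hya⟩ := hs
    have : y = a := Subtype.ext hya
    rw [← this]
    exact hy
  · intro I J lo lo' θ hθ
    obtain ⟨q, hq1, hq2, hq3⟩ := (h I).push (h J) θ hθ (r' I) (hinj I) (hbase I).indep
    obtain ⟨σ, t, ht1, ht2⟩ := (h J).exists_std (r' J) (hbase J) q hq1 hq2
    refine ⟨σ, t, ht1, fun A => ?_⟩
    rw [hsub, hsub, ← ht2 A, ← hq3 A, Substructure.map_map]
    rfl
  · intro J lo S hS
    obtain ⟨F, hF, h1⟩ := (h J).exists_sp hS
    obtain ⟨Y, hY⟩ := (h J).Mt.exists_isBasis F hF.subset_ground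
    obtain ⟨σ, t, -, ht2⟩ := (h J).exists_std (r' J) (hbase J)
      (fun y : Y => y.1) Subtype.val_injective (by
        rw [Subtype.range_coe]
        exact hY.indep)
    refine ⟨σ, t '' univ, ?_⟩
    rw [hsub, ← ht2 univ]
    have h2 : (h J).sp ((fun y : Y => y.1) '' univ) = S := by
      rw [image_univ, Subtype.range_coe, ← h1]
      exact le_antisymm ((h J).sp_le_sp.2 hY.closure_eq_closure.le)
        ((h J).sp_le_sp.2 hY.closure_eq_closure.ge)
    rw [h2]

/-- Ehrenfeucht-Mostowski models are geometric. -/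
theorem preFamily_isGeometric
    (hcat : ∀ a : Cardinal.{u}, ∃ κ, a ≤ κ ∧ K.CategoricalIn κ)
    (hgeo : ∀ a : Cardinal.{u}, ∃ (M : Type u) (_ : L.Structure M), K.mem M ∧ a ≤ #M ∧
      IsGeometric K M) (I : Type u) [LinearOrder I] : IsGeometric K (P.obj I) := by
  classical
  have hK : K.IsLS K.LS := AEC.isLS_LS K
  obtain ⟨κ, hκ, hcκ⟩ := hcat (max K.LS #(P.obj I))
  have hκ0 : ℵ₀ ≤ κ := hK.1.trans ((le_max_left _ _).trans hκ)
  obtain ⟨J, hJ, hJκ⟩ := P.large κ
  let T : Type u := I ⊕ₗ J
  let iI : I ↪o T := H227.lft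
  let iJ : J ↪o T := H227.rgt
  have hT : κ ≤ #(P.obj T) := hJκ.trans (mk_le_of_injective (P.map iJ).injective)
  obtain ⟨A, hA⟩ := le_mk_iff_exists_set.1 hT
  obtain ⟨S, hS1, hS2, hS3⟩ := hK.2.2 (P.obj T) (P.mem_obj T) (A ∪ range (P.map iI))
  have hSκ : #S = κ := by
    apply le_antisymm
    · refine hS3.trans (add_le_of_le hκ0 ?_ ((le_max_left _ _).trans hκ))
      refine (mk_union_le _ _).trans (add_le_of_le hκ0 hA.le (mk_range_le.trans ?_))
      exact (le_max_right _ _).trans hκ
    · rw [← hA]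
      exact mk_le_mk_of_subset (subset_union_left.trans hS2)
  obtain ⟨M, _, hM1, hM2, hM3⟩ := hgeo κ
  obtain ⟨A', hA'⟩ := le_mk_iff_exists_set.1 hM2
  obtain ⟨S', hS'1, hS'2, hS'3⟩ := hK.2.2 M hM1 A'
  have hS'κ : #S' = κ := by
    apply le_antisymm
    · exact hS'3.trans (add_le_of_le hκ0 hA'.le ((le_max_left _ _).trans hκ))
    · rw [← hA']
      exact mk_le_mk_of_subset hS'2
  have hB' : IsGeometric K S' :=
    isGeometric_of_emb S'.subtype (AEC.emb_subtype.2 hS'1) hM3
  obtain ⟨e⟩ := hcκ.2 S S' (K.mem_of_le _ hS1).1 (K.mem_of_le _ hS'1).1 hSκ hS'κ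
  have hB : IsGeometric K S :=
    isGeometric_of_emb e.toEmbedding (AEC.Emb.of_equiv e (K.mem_of_le _ hS1).1) hB'
  let ψ : P.obj I ↪[L] S := Embedding.codRestrict S (P.map iI) fun x =>
    hS2 (Or.inr ⟨x, rfl⟩)
  have hψ : K.Emb ψ := by
    refine AEC.Emb.of_comp (g := S.subtype) (AEC.emb_subtype.2 hS1) ?_
    have h1 : S.subtype.comp ψ = P.map iI := by
      apply Language.Embedding.ext
      intro x
      rfl
    rw [h1]
    exact P.emb iI
  exact isGeometric_of_emb ψ hψ hB

/-- The family of a class with arbitrarily large geometric members. -/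
theorem exists_homFamily_of_large (K : AEC L)
    (hcat : ∀ a : Cardinal.{u}, ∃ κ, a ≤ κ ∧ K.CategoricalIn κ)
    (hgeo : ∀ a : Cardinal.{u}, ∃ (M : Type u) (_ : L.Structure M), K.mem M ∧ a ≤ #M ∧
      IsGeometric K M) : Nonempty (HomFamily K) := by
  obtain ⟨P⟩ := Ow.exists_preFamily K fun χ => by
    obtain ⟨M, h1, h2, h3, -⟩ := hgeo χ
    exact ⟨M, h1, h2, h3⟩
  exact exists_homFamily P fun I _ => preFamily_isGeometric P hcat hgeo I

end Vale.Agent.P307.Gw
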