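import Vale.Agent.P307.Gw.Restr

/-! Independent points in the Ehrenfeucht-Mostowski models of classes with geometric members. -/

universe u

open FirstOrder Cardinal Set Function Language

namespace Vale.Agent.P307.Gw

open Ow (le_map le_comap map_comap map_le_range PreFamily)

variable {L : Language.{u, u}} {K : AEC L}

theorem strong_map_injective {M N : Type u} [L.Structure M] [L.Structure N] (φ : M ↪[L] N)
    {S T : L.Substructure M} (h : S.map φ.toHom = T.map φ.toHom) : S = T :=
  Substructure.map_injective_of_injective (f := φ.toHom) φ.injective h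

section

variable (P : PreFamily K) (g : ∀ (I : Type u) (_ : LinearOrder I), Geo K (P.obj I))

theorem ground_span {M : Type u} [L.Structure M] (g : Geo K M) (hM : K.mem M) :
    g.sp (g.Mt.E \ g.Mt.closure ∅) = ⊤ := by
  rw [eq_top_iff]
  obtain ⟨F, hF, h1⟩ := g.exists_sp (K.le_refl hM)
  rw [← h1, g.sp_le_sp, hF.closure]
  intro x hx
  by_cases h2 : x ∈ g.Mt.closure ∅
  · exact g.Mt.closure_subset_closure (empty_subset _) h2
  · exact g.Mt.subset_closure _ sdiff_subset ⟨hF.subset_ground hx, h2⟩

theorem exists_moving : ∃ x ∈ (g PUnit.{u + 1} inferInstance).Mt.E,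
    x ∉ (g PUnit.{u + 1} inferInstance).Mt.closure ∅ ∧
    ((g PUnit.{u + 1} inferInstance).sp {x}).map
      (P.map (PreFamily.pt (⟨false⟩ : ULift.{u} Bool))).toHom ≠
    ((g PUnit.{u + 1} inferInstance).sp {x}).map
      (P.map (PreFamily.pt (⟨true⟩ : ULift.{u} Bool))).toHom := by
  classical
  by_contra hc
  push Not at hc
  set g₀ := g PUnit.{u + 1} inferInstance with hg₀
  let g₁ := g (ULift.{u} Bool) inferInstance
  let U : Set g₀.X := g₀.Mt.E \ g₀.Mt.closure ∅
  refine P.sep (PreFamily.pt (⟨false⟩ : ULift.{u} Bool)) (PreFamily.pt ⟨true⟩) ?_ ?_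
  · intro h
    have h' : false = true :=
      congrArg (fun g : PUnit.{u + 1} ↪o ULift.{u} Bool => (g PUnit.unit).down) h
    exact absurd h' (by decide)
  · choose y hy1 hy2 using fun x : U => g₀.exists_pt g₁
      (P.map (PreFamily.pt (⟨false⟩ : ULift.{u} Bool))) (P.emb _) x.2.1 x.2.2
    have h1 := g₀.map_sp g₁ (P.map (PreFamily.pt (⟨false⟩ : ULift.{u} Bool))) (P.emb _)
      (fun x : U => x.1) y (fun x => x.2.1) hy1 univ fun x _ => hy2 x
    have h2 := g₀.map_sp g₁ (P.map (PreFamily.pt (⟨true⟩ : ULift.{u} Bool))) (P.emb _)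
      (fun x : U => x.1) y (fun x => x.2.1) hy1 univ fun x _ => by
        rw [← hc x.1 x.2.1 x.2.2]
        exact hy2 x
    have h3 : (fun x : U => x.1) '' univ = U := by
      rw [image_univ]
      exact Subtype.range_coe
    rw [h3] at h1 h2
    have h4 : g₀.sp U = ⊤ := ground_span g₀ (P.mem_obj _)
    rw [h4] at h1 h2
    rw [Hom.range_eq_map, Hom.range_eq_map, h1, h2]

theorem exists_points : ∃ r : ∀ (I : Type u) (lo : LinearOrder I), I → (g I lo).X,
    (∀ (I : Type u) (lo : LinearOrder I), Injective (r I lo) ∧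
      (g I lo).Mt.Indep (range (r I lo))) ∧
    ∀ (I J : Type u) (lo : LinearOrder I) (lo' : LinearOrder J) (f : I ↪o J) (A : Set I),
      ((g I lo).sp (r I lo '' A)).map (P.map f).toHom = (g J lo').sp (r J lo' '' (f '' A)) := by
  classical
  obtain ⟨x0, hx0, hx0', hx0''⟩ := exists_moving P g
  choose r hrE hr using fun (I : Type u) (lo : LinearOrder I) (i : I) =>
    (g PUnit.{u + 1} inferInstance).exists_pt (g I lo) (P.map (PreFamily.pt i)) (P.emb _) hx0 hx0'
  have hr1 : ∀ (I J : Type u) (lo : LinearOrder I) (lo' : LinearOrder J) (f : I ↪o J) (i : I),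
      ((g I lo).sp {r I lo i}).map (P.map f).toHom = (g J lo').sp {r J lo' (f i)} := by
    intro I J lo lo' f i
    rw [← hr I lo i, ← hr J lo' (f i), Substructure.map_map]
    congr 1
    ext y
    exact (P.map_trans (PreFamily.pt i) f y).symm
  have hr2 : ∀ (I J : Type u) (lo : LinearOrder I) (lo' : LinearOrder J) (f : I ↪o J) (A : Set I),
      ((g I lo).sp (r I lo '' A)).map (P.map f).toHom = (g J lo').sp (r J lo' '' (f '' A)) := by
    intro I J lo lo' f A
    rw [(g I lo).map_sp (g J lo') (P.map f) (P.emb f) (r I lo) (fun i => r J lo' (f i))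
      (hrE I lo) (fun i => hrE J lo' (f i)) A fun i _ => hr1 I J lo lo' f i, image_image]
  have hne : ∀ (I : Type u) (lo : LinearOrder I) (a b : I), a < b →
      (g I lo).sp {r I lo a} ≠ (g I lo).sp {r I lo b} := by
    intro I lo a b hab h
    let j : ULift.{u} Bool ↪o I := OrderEmbedding.ofStrictMono
      (fun z => if z.down then b else a) (by
        rintro ⟨z⟩ ⟨w⟩ hzw
        cases z <;> cases w
        · exact absurd hzw (lt_irrefl _)
        · simpa using hab
        · exact absurd (show true < false from hzw) (by decide)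
        · exact absurd hzw (lt_irrefl _))
    have h1 := hr1 (ULift.{u} Bool) I inferInstance lo j ⟨false⟩
    have h2 := hr1 (ULift.{u} Bool) I inferInstance lo j ⟨true⟩
    have h3 : j ⟨false⟩ = a := rfl
    have h4 : j ⟨true⟩ = b := rfl
    rw [h3, h, ← h4, ← h2] at h1
    have h5 := strong_map_injective _ h1
    rw [← hr, ← hr] at h5
    exact hx0'' h5
  have htr : ∀ (I J : Type u) (lo : LinearOrder I) (lo' : LinearOrder J) (f : I ↪o J) (A : Set I)
      (m : I), r I lo m ∈ (g I lo).Mt.closure (r I lo '' A) ↔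
        r J lo' (f m) ∈ (g J lo').Mt.closure (r J lo' '' (f '' A)) := by
    intro I J lo lo' f A m
    rw [← (g I lo).pt_le_sp (hrE I lo m), ← (g J lo').pt_le_sp (hrE J lo' (f m)),
      ← hr1 I J lo lo' f m, ← hr2 I J lo lo' f A]
    exact (Substructure.map_le_map_iff_of_injective (f := (P.map f).toHom)
      (P.map f).injective).symm
  have hind : ∀ (I : Type u) (lo : LinearOrder I) (m : I),
      r I lo m ∉ (g I lo).Mt.closure (r I lo '' {m}ᶜ) := by
    intro I lo m hm
    -- the indices below `m`, many copies of `m`, the indices above `m`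
    let A : Set I := {m}ᶜ
    let Q : Type u := (Order.succ ((2 : Cardinal.{u}) ^ #(P.obj A))).ord.ToType
    let U : Set I := Iio m
    let V : Set I := Ioi m
    let J : Type u := (U ⊕ₗ Q) ⊕ₗ V
    let a1 : U → J := fun i => H227.lft (H227.lft i)
    let a2 : Q → J := fun q => H227.lft (H227.rgt q)
    let a3 : V → J := fun i => H227.rgt i
    have h11 : ∀ i j, i < j → a1 i < a1 j := fun i j h =>
      Sum.Lex.inl_strictMono (Sum.Lex.inl_strictMono h)
    have h12 : ∀ i j, a1 i < a2 j := fun i j => Sum.Lex.inl_strictMono (Sum.Lex.inl_lt_inr _ _)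
    have h13 : ∀ i j, a1 i < a3 j := fun i j => Sum.Lex.inl_lt_inr _ _
    have h22 : ∀ i j, i < j → a2 i < a2 j := fun i j h =>
      Sum.Lex.inl_strictMono (Sum.Lex.inr_strictMono h)
    have h23 : ∀ i j, a2 i < a3 j := fun i j => Sum.Lex.inl_lt_inr _ _
    have h33 : ∀ i j, i < j → a3 i < a3 j := fun i j h => Sum.Lex.inr_strictMono h
    let f0 : Q → I → J := fun α i =>
      if h : i < m then a1 ⟨i, h⟩ else if h' : m < i then a3 ⟨i, h'⟩ else a2 α
    have f1 : ∀ α i (h : i < m), f0 α i = a1 ⟨i, h⟩ := fun α i h => dif_pos h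
    have f3 : ∀ α i (h : m < i), f0 α i = a3 ⟨i, h⟩ := fun α i h => by
      simp only [f0, not_lt_of_gt h, h, dif_pos, dif_neg, not_false_eq_true]
    have f2 : ∀ α, f0 α m = a2 α := fun α => by
      simp only [f0, lt_irrefl, dif_neg, not_false_eq_true]
    have fmono : ∀ α, StrictMono (f0 α) := by
      intro α i j hij
      rcases lt_trichotomy i m with hi | hi | hi <;> rcases lt_trichotomy j m with hj | hj | hj
      · rw [f1 α i hi, f1 α j hj]
        exact h11 _ _ hij
      · rw [f1 α i hi, hj, f2]
        exact h12 _ _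
      · rw [f1 α i hi, f3 α j hj]
        exact h13 _ _
      · rw [hi] at hij
        exact absurd hij (lt_asymm hj)
      · rw [hi, hj] at hij
        exact absurd hij (lt_irrefl _)
      · rw [hi, f2, f3 α j hj]
        exact h23 _ _
      · exact absurd (hij.trans hj) (lt_asymm hi)
      · rw [hj] at hij
        exact absurd hij (lt_asymm hi)
      · rw [f3 α i hi, f3 α j hj]
        exact h33 _ _ hij
    let f : Q → (I ↪o J) := fun α => OrderEmbedding.ofStrictMono (f0 α) (fmono α)
    have hfm : ∀ α, f α m = a2 α := f2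
    have hQ : Nonempty Q := by
      rw [← mk_ne_zero_iff, mk_ord_toType]
      exact (bot_le.trans_lt (Order.lt_succ _)).ne'
    obtain ⟨α₀⟩ := hQ
    let k : A ↪o J := (OrderEmbedding.subtype (· ∈ A)).trans (f α₀)
    have hk : ∀ α, f α '' A = range k := by
      intro α
      have h4 : ∀ i ∈ A, f α i = f α₀ i := by
        intro i hi
        change f0 α i = f0 α₀ i
        rcases lt_trichotomy i m with h | h | h
        · rw [f1 α i h, f1 α₀ i h]
        · exact absurd h hi
        · rw [f3 α i h, f3 α₀ i h]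
      ext z
      constructor
      · rintro ⟨i, hi, rfl⟩
        exact ⟨⟨i, hi⟩, (h4 i hi).symm⟩
      · rintro ⟨i, rfl⟩
        exact ⟨i.1, i.2, h4 i.1 i.2⟩
    have h2 : ∀ α : Q, (g J inferInstance).sp {r J inferInstance (a2 α)} ≤
        (P.map k).toHom.range := by
      intro α
      have h3 := (htr I J lo inferInstance (f α) A m).1 hm
      rw [hfm, hk, ← (g J inferInstance).pt_le_sp (hrE _ _ _), ← image_univ,
        ← hr2 A J inferInstance inferInstance k univ] at h3
      exact h3.trans (map_le_range _ _)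
    have h5 : ∀ γ δ : Q, {b : P.obj A | P.map k b ∈
        (g J inferInstance).sp {r J inferInstance (a2 γ)}} =
        {b : P.obj A | P.map k b ∈ (g J inferInstance).sp {r J inferInstance (a2 δ)}} →
        (g J inferInstance).sp {r J inferInstance (a2 γ)} ≤
        (g J inferInstance).sp {r J inferInstance (a2 δ)} := by
      intro γ δ h6 x hx
      obtain ⟨b, rfl⟩ := h2 γ hx
      have h7 : b ∈ {b : P.obj A | P.map k b ∈
          (g J inferInstance).sp {r J inferInstance (a2 γ)}} := hx
      rw [h6] at h7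
      exact h7
    have h3 : #Q ≤ #(Set (P.obj A)) := mk_le_of_injective
      (f := fun α : Q => {b : P.obj A | P.map k b ∈
        (g J inferInstance).sp {r J inferInstance (a2 α)}}) (by
        intro α β hαβ
        have h8 := le_antisymm (h5 α β hαβ) (h5 β α hαβ.symm)
        rcases lt_trichotomy α β with h4 | h4 | h4
        · exact absurd h8 (hne J inferInstance _ _ (h22 _ _ h4))
        · exact h4
        · exact absurd h8.symm (hne J inferInstance _ _ (h22 _ _ h4)))
    rw [mk_ord_toType, mk_set] at h3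
    exact absurd h3 (not_le.2 (Order.lt_succ _))
  exact ⟨r, fun I lo => (indep_range_iff (r I lo) (hrE I lo)).2 (hind I lo), hr2⟩

end

end Vale.Agent.P307.Gw
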