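import Vale.Agent.P307.Gw.Geo

/-! Strong substructures of geometric members are geometric. -/

universe u

open FirstOrder Cardinal Set Function Language

namespace Vale.Agent.P307.Gw

open Ow (le_map le_comap map_comap map_le_range)
open H227 (SymmetricFamily)

variable {L : Language.{u, u}}

section matroid

variable {X : Type u} {Mt : Matroid X}

theorem exists_compl {F₀ : Set X} (h : Mt.IsFlat F₀) : ∃ C : Set X, Disjoint F₀ C ∧
    ∀ B, Mt.IsBasis B F₀ → Mt.IsBase (C ∪ B) := by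
  obtain ⟨C, hC⟩ := (Mt.contract F₀).exists_isBase
  refine ⟨C, ?_, fun B hB => ?_⟩
  · obtain ⟨B₀, hB₀⟩ := Mt.exists_isBasis F₀ h.subset_ground
    exact (hB₀.contract_indep_iff.1 hC.indep).2
  · rw [Matroid.isBase_iff_indep_closure_eq]
    refine ⟨(hB.contract_indep_iff.1 hC.indep).1, ?_⟩
    have h1 := hC.closure_eq
    rw [Matroid.contract_closure_eq, Matroid.contract_ground] at h1
    have h2 : Mt.closure (C ∪ B) = Mt.closure (C ∪ F₀) :=
      Mt.closure_union_congr_right hB.closure_eq_closure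
    have hCE : C ⊆ Mt.E := hC.subset_ground.trans (by
      rw [Matroid.contract_ground]
      exact sdiff_subset)
    rw [h2]
    apply subset_antisymm (Mt.closure_subset_ground _)
    intro x hx
    by_cases hxF : x ∈ F₀
    · exact Mt.subset_closure (C ∪ F₀) (union_subset hCE h.subset_ground) (Or.inr hxF)
    · have h3 : x ∈ Mt.E \ F₀ := ⟨hx, hxF⟩
      rw [← h1] at h3
      exact h3.1

end matroid

namespace Geo

variable {K : AEC L} {M N : Type u} [L.Structure M] [L.Structure N]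
variable (h : Geo K N)

theorem flat_val (F : {F : Set h.X // h.Mt.IsFlat F}) : flat h.Mt F.1 = F :=
  Subtype.ext F.2.closure

/-- The flat of the image of a strong embedding. -/
noncomputable def imF (φ : M ↪[L] N) (hφ : K.Emb φ) : Set h.X := (h.e.symm ⟨φ.toHom.range, hφ⟩).1

theorem imF_flat (φ : M ↪[L] N) (hφ : K.Emb φ) : h.Mt.IsFlat (h.imF φ hφ) :=
  (h.e.symm ⟨φ.toHom.range, hφ⟩).2

theorem sp_imF (φ : M ↪[L] N) (hφ : K.Emb φ) : h.sp (h.imF φ hφ) = φ.toHom.range := by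
  have h1 : flat h.Mt (h.imF φ hφ) = h.e.symm ⟨φ.toHom.range, hφ⟩ := h.flat_val _
  rw [sp, h1, OrderIso.apply_symm_apply]

theorem sp_le_range {φ : M ↪[L] N} (hφ : K.Emb φ) {A : Set h.X} (hA : A ⊆ h.imF φ hφ) :
    h.sp A ≤ φ.toHom.range := by
  rw [← h.sp_imF φ hφ]
  exact h.sp_mono hA

theorem closure_subset_imF {φ : M ↪[L] N} (hφ : K.Emb φ) {A : Set h.X}
    (hA : A ⊆ h.imF φ hφ) : h.Mt.closure A ⊆ h.imF φ hφ := by
  have h1 := h.Mt.closure_subset_closure hA
  rwa [(h.imF_flat φ hφ).closure] at h1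

/-- The order isomorphism of a strong substructure. -/
noncomputable def restrictIso (φ : M ↪[L] N) (hφ : K.Emb φ) :
    {F : Set h.X // (h.Mt.restrict (h.imF φ hφ)).IsFlat F} ≃o
      {S : L.Substructure M // K.le S} where
  toFun F := ⟨(h.sp F.1).comap φ.toHom, le_comap φ hφ (h.le_sp _)
    (h.sp_le_range hφ ((isFlat_restrict (h.imF_flat φ hφ) _).1 F.2).2)⟩
  invFun S := ⟨(h.e.symm ⟨S.1.map φ.toHom, le_map φ hφ S.2⟩).1,
    (isFlat_restrict (h.imF_flat φ hφ) _).2 ⟨(h.e.symm _).2, by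
      have h1 : h.e.symm ⟨S.1.map φ.toHom, le_map φ hφ S.2⟩ ≤
          h.e.symm ⟨φ.toHom.range, hφ⟩ := h.e.symm.monotone (map_le_range φ S.1)
      exact h1⟩⟩
  left_inv F := by
    have h1 := (isFlat_restrict (h.imF_flat φ hφ) _).1 F.2
    apply Subtype.ext
    have h2 : (⟨((h.sp F.1).comap φ.toHom).map φ.toHom, le_map φ hφ (le_comap φ hφ (h.le_sp _)
        (h.sp_le_range hφ h1.2))⟩ : {S : L.Substructure N // K.le S}) = h.e (flat h.Mt F.1) :=
      Subtype.ext (map_comap φ (h.sp_le_range hφ h1.2))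
    change (h.e.symm ⟨((h.sp F.1).comap φ.toHom).map φ.toHom, _⟩).1 = F.1
    rw [h2, OrderIso.symm_apply_apply]
    exact h1.1.closure
  right_inv S := by
    apply Subtype.ext
    change (h.sp (h.e.symm ⟨S.1.map φ.toHom, le_map φ hφ S.2⟩).1).comap φ.toHom = S.1
    rw [sp, h.flat_val, OrderIso.apply_symm_apply]
    ext y
    constructor
    · rintro ⟨z, hz, hzy⟩
      rwa [← φ.injective hzy]
    · intro hy
      exact ⟨y, hy, rfl⟩
  map_rel_iff' {F F'} := by
    have h1 := (isFlat_restrict (h.imF_flat φ hφ) _).1 F.2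
    have h2 := (isFlat_restrict (h.imF_flat φ hφ) _).1 F'.2
    change (h.sp F.1).comap φ.toHom ≤ (h.sp F'.1).comap φ.toHom ↔ F.1 ⊆ F'.1
    constructor
    · intro h3
      have h4 := Substructure.monotone_map (f := φ.toHom) h3
      rw [map_comap φ (h.sp_le_range hφ h1.2), map_comap φ (h.sp_le_range hφ h2.2),
        h.sp_le_sp, h1.1.closure, h2.1.closure] at h4
      exact h4
    · intro h3 x hx
      exact h.sp_mono h3 hx

theorem map_restrictIso (φ : M ↪[L] N) (hφ : K.Emb φ) {A : Set h.X} (hA : A ⊆ h.imF φ hφ) :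
    (h.restrictIso φ hφ (flat (h.Mt.restrict (h.imF φ hφ)) A)).1.map φ.toHom = h.sp A := by
  change ((h.sp ((h.Mt.restrict (h.imF φ hφ)).closure A)).comap φ.toHom).map φ.toHom = h.sp A
  rw [restrict_closure_flat (h.imF_flat φ hφ), inter_eq_left.2 hA]
  have h1 : h.sp (h.Mt.closure A) = h.sp A := by
    apply le_antisymm
    · rw [h.sp_le_sp, h.Mt.closure_closure]
    · rw [h.sp_le_sp, h.Mt.closure_closure]
  rw [h1]
  exact map_comap φ (h.sp_le_range hφ hA)

theorem restrict_conj (φ : M ↪[L] N) (hφ : K.Emb φ) (B B' : Set h.X)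
    (hB : (h.Mt.restrict (h.imF φ hφ)).IsBase B) (hB' : (h.Mt.restrict (h.imF φ hφ)).IsBase B') :
    ∃ σ : M ≃[L] M,
      (∀ b ∈ B ∩ B', (h.restrictIso φ hφ (flat _ {b})).1.map σ.toHom =
        (h.restrictIso φ hφ (flat _ {b})).1) ∧
      (∀ b ∈ B, ∃ b' ∈ B', (h.restrictIso φ hφ (flat _ {b})).1.map σ.toHom =
        (h.restrictIso φ hφ (flat _ {b'})).1) ∧
      ∀ b' ∈ B', ∃ b ∈ B, (h.restrictIso φ hφ (flat _ {b})).1.map σ.toHom =
        (h.restrictIso φ hφ (flat _ {b'})).1 := by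
  have hF := h.imF_flat φ hφ
  have hB1 := (Matroid.isBase_restrict_iff hF.subset_ground).1 hB
  have hB2 := (Matroid.isBase_restrict_iff hF.subset_ground).1 hB'
  have hBE : ∀ b ∈ B, b ∈ h.Mt.E := fun b hb => hF.subset_ground (hB1.subset hb)
  have hBE' : ∀ b ∈ B', b ∈ h.Mt.E := fun b hb => hF.subset_ground (hB2.subset hb)
  obtain ⟨C, hC, hC'⟩ := exists_compl hF
  obtain ⟨σ, h1, h2, h3⟩ := h.conj (C ∪ B) (C ∪ B') (hC' B hB1) (hC' B' hB2)
  have hCE : ∀ c ∈ C, c ∈ h.Mt.E := fun c hc => (hC' B hB1).subset_ground (Or.inl hc)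
  have hinj : ∀ S T : L.Substructure N, S.map σ.toHom = T.map σ.toHom → S = T := fun S T h =>
    Substructure.map_injective_of_injective (f := σ.toHom) σ.injective h
  have hne : ∀ c ∈ C, ∀ b ∈ h.imF φ hφ, h.sp {c} ≠ h.sp {b} := by
    intro c hc b hb hcb
    have h4 : c ∈ h.Mt.closure {b} := by
      rw [← h.pt_le_sp (hCE c hc), hcb]
    exact hC.le_bot ⟨h.closure_subset_imF hφ (singleton_subset_iff.2 hb) h4, hc⟩
  have k1 : ∀ b ∈ B, ∃ b' ∈ B', (h.sp {b}).map σ.toHom = h.sp {b'} := by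
    intro b hb
    obtain ⟨b', hb', h4⟩ := h2 b (Or.inr hb)
    rcases hb' with hb' | hb'
    · exfalso
      have h5 := h1 b' ⟨Or.inl hb', Or.inl hb'⟩
      exact hne b' hb' b (hB1.subset hb) (hinj _ _ (h5.trans h4.symm))
    · exact ⟨b', hb', h4⟩
  have k2 : ∀ b' ∈ B', ∃ b ∈ B, (h.sp {b}).map σ.toHom = h.sp {b'} := by
    intro b' hb'
    obtain ⟨b, hb, h4⟩ := h3 b' (Or.inr hb')
    rcases hb with hb | hb
    · exfalso
      have h5 := h1 b ⟨Or.inl hb, Or.inl hb⟩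
      exact hne b hb b' (hB2.subset hb') (h5.symm.trans h4)
    · exact ⟨b, hb, h4⟩
  have hσ : K.Emb σ.toEmbedding := AEC.Emb.of_equiv σ (K.mem_of_le _ (h.le_sp ∅)).2
  have hsB : h.sp B = φ.toHom.range := by
    rw [← h.sp_imF φ hφ]
    exact le_antisymm (h.sp_le_sp.2 hB1.closure_eq_closure.le)
      (h.sp_le_sp.2 hB1.closure_eq_closure.ge)
  have hsB' : h.sp B' = φ.toHom.range := by
    rw [← h.sp_imF φ hφ]
    exact le_antisymm (h.sp_le_sp.2 hB2.closure_eq_closure.le)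
      (h.sp_le_sp.2 hB2.closure_eq_closure.ge)
  have htop : ∀ S : L.Substructure N, S ≤ σ.toEmbedding.toHom.range := fun S x _ =>
    ⟨σ.symm x, σ.apply_symm_apply x⟩
  have k3 : φ.toHom.range.map σ.toHom = φ.toHom.range := by
    apply le_antisymm
    · nth_rewrite 1 [← hsB]
      rw [← hsB', Substructure.map_le_iff_le_comap]
      refine (h.sp_le_iff hBE (le_comap σ.toEmbedding hσ (h.le_sp B') (htop _))).2 fun b hb => ?_
      obtain ⟨b', hb', h4⟩ := k1 b hb
      change h.sp {b} ≤ (h.sp B').comap σ.toHom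
      rw [← Substructure.map_le_iff_le_comap, h4]
      exact h.sp_mono (singleton_subset_iff.2 hb')
    · nth_rewrite 1 [← hsB']
      rw [← hsB]
      refine (h.sp_le_iff hBE' (le_map σ.toEmbedding hσ (h.le_sp B))).2 fun b' hb' => ?_
      obtain ⟨b, hb, h4⟩ := k2 b' hb'
      rw [← h4]
      exact Substructure.monotone_map (h.sp_mono (singleton_subset_iff.2 hb))
  obtain ⟨τ, hτ⟩ := (SymmetricFamily.isPI_pull (σ.toEmbedding.comp φ) φ).exists_equiv
    (fun a => by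
      have h4 : σ (φ a) ∈ φ.toHom.range.map σ.toHom := ⟨φ a, ⟨a, rfl⟩, rfl⟩
      rw [k3] at h4
      obtain ⟨b, hb⟩ := h4
      exact ⟨b, hb.symm⟩)
    (fun b => by
      have h4 : φ b ∈ φ.toHom.range.map σ.toHom := by
        rw [k3]
        exact ⟨b, rfl⟩
      obtain ⟨_, ⟨a, rfl⟩, ha⟩ := h4
      exact ⟨a, ha⟩)
  have hτ' : ∀ a, σ (φ a) = φ (τ a) := hτ
  have key : ∀ b b' : h.X, b ∈ h.imF φ hφ → b' ∈ h.imF φ hφ →
      (h.sp {b}).map σ.toHom = h.sp {b'} →
      (h.restrictIso φ hφ (flat _ {b})).1.map τ.toHom =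
        (h.restrictIso φ hφ (flat _ {b'})).1 := by
    intro b b' hb hb' h4
    apply Substructure.map_injective_of_injective (f := φ.toHom) φ.injective
    rw [h.map_restrictIso φ hφ (singleton_subset_iff.2 hb'), ← h4,
      ← h.map_restrictIso φ hφ (singleton_subset_iff.2 hb)]
    ext x
    constructor
    · rintro ⟨_, ⟨y, hy, rfl⟩, rfl⟩
      exact ⟨φ y, ⟨y, hy, rfl⟩, hτ' y⟩
    · rintro ⟨_, ⟨y, hy, rfl⟩, rfl⟩
      exact ⟨τ y, ⟨y, hy, rfl⟩, (hτ' y).symm⟩
  refine ⟨τ, fun b hb => key b b (hB1.subset hb.1) (hB1.subset hb.1)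
    (h1 b ⟨Or.inr hb.1, Or.inr hb.2⟩), fun b hb => ?_, fun b' hb' => ?_⟩
  · obtain ⟨b', hb', h4⟩ := k1 b hb
    exact ⟨b', hb', key b b' (hB1.subset hb) (hB2.subset hb') h4⟩
  · obtain ⟨b, hb, h4⟩ := k2 b' hb'
    exact ⟨b, hb, key b b' (hB1.subset hb) (hB2.subset hb') h4⟩

/-- A strong substructure of a geometric member. -/
noncomputable def restrict (φ : M ↪[L] N) (hφ : K.Emb φ) : Geo K M where
  X := h.X
  Mt := h.Mt.restrict (h.imF φ hφ)
  e := h.restrictIso φ hφ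
  conj := h.restrict_conj φ hφ

theorem map_restrict_sp (φ : M ↪[L] N) (hφ : K.Emb φ) {A : Set h.X} (hA : A ⊆ h.imF φ hφ) :
    ((h.restrict φ hφ).sp A).map φ.toHom = h.sp A := h.map_restrictIso φ hφ hA

end Geo

theorem isGeometric_of_emb {K : AEC L} {M N : Type u} [L.Structure M] [L.Structure N]
    (φ : M ↪[L] N) (hφ : K.Emb φ) (h : IsGeometric K N) : IsGeometric K M := by
  rw [isGeometric_iff] at h ⊢
  obtain ⟨h⟩ := h
  exact ⟨h.restrict φ hφ⟩

end Vale.Agent.P307.Gw
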