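import Vale.Agent.P307.Gw.Code
import Vale.Agent.P307.Gw.Fam
import Vale.Agent.P307.H4.Top
import Vale.Agent.P307.Ow.Top

/-! Categoricity transfer for classes with one large geometric member. -/

universe u

open FirstOrder Cardinal Set Function Language

namespace Vale.Agent.P307.Gw

theorem geometric_of_large {L : Language.{u, u}} {K : AEC L} {κ : Cardinal.{u}} (hκ : K.LS ≤ κ)
    (hcat : K.CategoricalIn κ)
    (hgeo : ∀ a : Cardinal.{u}, ∃ (M : Type u) (_ : L.Structure M), K.mem M ∧ a ≤ #M ∧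
      IsGeometric K M) (M : Type u) [L.Structure M] (hM : K.mem M) (hMκ : #M = κ) :
    IsGeometric K M := by
  have hK : K.IsLS K.LS := AEC.isLS_LS K
  obtain ⟨N, _, hN1, hN2, hN3⟩ := hgeo κ
  obtain ⟨A, hA⟩ := le_mk_iff_exists_set.1 hN2
  obtain ⟨S, hS1, hS2, hS3⟩ := hK.2.2 N hN1 A
  have hSκ : #S = κ := by
    apply le_antisymm
    · exact hS3.trans (add_le_of_le (hK.1.trans hκ) hA.le hκ)
    · rw [← hA]
      exact mk_le_mk_of_subset hS2
  have hB : IsGeometric K S := isGeometric_of_emb S.subtype (AEC.emb_subtype.2 hS1) hN3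
  obtain ⟨e⟩ := hcat.2 M S hM (K.mem_of_le _ hS1).1 hMκ hSκ
  exact isGeometric_of_emb e.toEmbedding (AEC.Emb.of_equiv e hM) hB

/-- Q1 for the classes with one geometric member of large cardinality. -/
theorem q1_geometric (l : Cardinal.{u}) :
    ∃ μ : Cardinal.{u}, l ≤ μ ∧ ∀ (L : Language.{u, u}) (K : AEC L), K.LS ≤ l →
      (∃ (M : Type u) (_ : L.Structure M), K.mem M ∧ μ ≤ #M ∧ IsGeometric K M) →
      (∃ κ : Cardinal.{u}, μ ≤ κ ∧ K.CategoricalIn κ) →
        ∀ κ' : Cardinal.{u}, μ ≤ κ' → K.CategoricalIn κ' ∧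
          ∀ (M : Type u) [L.Structure M], K.mem M → #M = κ' → IsGeometric K M := by
  obtain ⟨μ₀, hμ₀, hμ⟩ := H67.exists_threshold l
  obtain ⟨μ₁, hμ₁⟩ := exists_mu_geometric l
  obtain ⟨μ₂, hμ₂⟩ := Ow.exists_mu_cat l
  refine ⟨max μ₀ (max μ₁ μ₂), hμ₀.trans (le_max_left _ _), ?_⟩
  rintro L K hK ⟨M, i, h1, h2, h3⟩ ⟨κ, hκ, hcat⟩ κ' hκ'
  have hb := hμ₁ L K hK ⟨M, i, h1, ((le_max_left _ _).trans (le_max_right _ _)).trans h2, h3⟩
  have hc := hμ₂ L K hK ⟨κ, ((le_max_right _ _).trans (le_max_right _ _)).trans hκ, hcat⟩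
  obtain ⟨F⟩ := exists_homFamily_of_large K hc hb
  have h4 := hμ L K hK (H4.eventually_of_homFamily F hc) κ' ((le_max_left _ _).trans hκ')
  refine ⟨h4, fun M _ hM hMκ => geometric_of_large ?_ h4 hb M hM hMκ⟩
  exact (hK.trans hμ₀).trans ((le_max_left _ _).trans hκ')

/-- Members whose strong substructures form a power set are geometric. -/
theorem isGeometric_of_isBoolean {L : Language.{u, u}} {K : AEC L} {M : Type u} [L.Structure M]
    (h : H227.IsBoolean K M) : IsGeometric K M := by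
  obtain ⟨X, ⟨e⟩⟩ := h
  have hflat : ∀ A : Set X, (Matroid.freeOn (univ : Set X)).IsFlat A := fun A => by
    rw [Matroid.isFlat_iff_closure_eq]
    simp
  refine ⟨X, Matroid.freeOn univ,
    { toFun := fun F => e F.1
      invFun := fun S => ⟨e.symm S, hflat _⟩
      left_inv := fun F => Subtype.ext (e.symm_apply_apply F.1)
      right_inv := fun S => e.apply_symm_apply S
      map_rel_iff' := e.le_iff_le }, fun B B' hB hB' => ?_⟩
  rw [Matroid.freeOn_isBase_iff] at hB hB'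
  subst hB
  subst hB'
  have h1 : ∀ S : L.Substructure M, S.map (Language.Equiv.refl L M).toHom = S := by
    intro S
    ext x
    constructor
    · rintro ⟨y, hy, rfl⟩
      exact hy
    · intro hx
      exact ⟨x, hx, rfl⟩
  exact ⟨Language.Equiv.refl L M, fun b _ => h1 _, fun b hb => ⟨b, hb, h1 _⟩,
    fun b hb => ⟨b, hb, h1 _⟩⟩

end Vale.Agent.P307.Gw
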